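import Vale.Agent.P275NB.Fin
import Vale.Agent.P275NU.Fin
import Vale.Agent.P275KG.Fin
import Vale.Agent.P275RL.Fin

/-!
# P275, families: the bridge for a given atlas, subordinate atlases
-/

set_option linter.unusedSectionVars false

open scoped Matrix.Norms.Operator Topology ContDiff Manifold
open Filter Set Matrix Metric
open Vale.Agent.P275GC Vale.Agent.P275GC.At Vale.Agent.P275AD
open Vale.Agent.P275ST (Higgs NAH Rep XB deg)
open Vale.Agent.P275Z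
open Vale.Agent.P275MO (Ob Mod pt_surj)
open Vale.Agent.P275NU (NuR NU Sl)
open Vale.Agent.P275NB (exists_mu nah_iff conj_cj rep_pt_eq)

noncomputable section

namespace Vale.Agent.P275TD

/-- **(D2)** the bridge for a given atlas -/
theorem brgAt (S : Sit) (T : S.Atl) : ∃ B : S.Brg, B.T = T := by
  obtain ⟨R⟩ := P275RL.rhf_ok S T
  obtain ⟨Sg, ν, n1, n2, n3⟩ := P275NU.nu_ok T.std (P275KG.kur_ok T.std)
  obtain ⟨μ, m1, m2, m3⟩ := exists_mu (two_pos.trans_le S.adm.hn) S.adm.cop R.toRHD R.hp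
  let κ : XB S.g S.n (deg S.D) → Sl T.A S.n T.l 0 := fun x => ν.symm ⟨μ x, (m2 x).1⟩
  have hκ : Topology.IsEmbedding κ := ν.symm.isEmbedding.comp
    (m1.codRestrict {y | y.lam = 1} fun x => (m2 x).1)
  have nu : ∀ y, NuR y.1 (ν y).1 := fun y => ((n1 1 y _).1 (n3 y)).2
  have νκ : ∀ x, (ν (κ x)).1 = μ x := fun x => congrArg Subtype.val (ν.apply_symm_apply _)
  have κx : ∀ x, (κ x).1.x = S.p := fun x => (nu _).2.1.symm.trans (νκ x ▸ (m2 x).2)
  have κe : ∀ x y, μ x = (ν y).1 → κ x = y := fun x y e => ν.symm_apply_eq.2 (Subtype.ext e)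
  have s0 : ∀ x, Sg ((((0 : unitInterval) : ℝ) : ℂ), κ x) = (κ x).1 := fun x => by
    simpa using n2 (κ x)
  refine ⟨⟨T, R, ⟨fun q => Sg (((q.1 : ℝ) : ℂ), κ q.2), Sg.continuous.comp
    ((Complex.continuous_ofReal.comp (continuous_subtype_val.comp continuous_fst)).prodMk
      (hκ.continuous.comp continuous_snd))⟩, fun t x => ((n1 _ _ _).1 rfl).1,
    fun t x => ((n1 _ _ _).1 rfl).2.2.1.trans (κx x), ?_, fun y a b => ?_, fun ρ => ?_,
    fun E ρ => ⟨fun N => ?_, fun ⟨z, a, b⟩ => ?_⟩⟩, rfl⟩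
  · exact (congrArg Topology.IsEmbedding (funext s0)).mpr (Topology.IsEmbedding.subtypeVal.comp hκ)
  · obtain ⟨z, hz⟩ := pt_surj (ν ⟨y, a⟩).1
    obtain ⟨ρ, -, e⟩ := m3 z ((congrArg Mod.lam hz).trans (ν _).2)
      ((congrArg Mod.x hz).trans ((nu _).2.1.trans b))
    exact ⟨ρ.pt, (s0 _).trans (congrArg Subtype.val (κe _ _ (e.trans hz)))⟩
  · obtain ⟨z, hz⟩ := pt_surj (μ ρ.pt)
    obtain ⟨ρ', a, e⟩ := m3 z ((congrArg Mod.lam hz).trans (m2 _).1)
      ((congrArg Mod.x hz).trans (m2 _).2)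
    obtain ⟨h, d, q⟩ := conj_cj (rep_pt_eq.1 (m1.injective (e.trans hz)))
    have d : h.det ≠ 0 := d ▸ one_ne_zero
    obtain ⟨⟨r, b1, b2, gd, st⟩, hR⟩ := z.2
    refine ⟨⟨z.1.act h, ⟨r, b1, b2, P275MB.Good.act gd d, st⟩, ?_⟩, ?_, R.act _ _ _ _ h a d q⟩
    · change h⁻¹ * z.1.R * h ∈ ⊥
      rw [(Submodule.mem_bot ℂ).1 hR, Matrix.mul_zero, Matrix.zero_mul]
      exact Submodule.zero_mem _
    · refine Eq.trans (P275MB.pt_eq_iff.2 ⟨r, b1, b2, _, h, trivial,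
        P275MB.isoBy_act (A := T.A.res r b1 b2) z.1 h⟩) (hz.trans ?_)
      simpa [νκ] using (n3 (κ ρ.pt)).symm
  · obtain ⟨z, a, b⟩ := (P275AD.rpa' S T).1 E
    exact ⟨z, ((s0 _).trans (congrArg Subtype.val (κe _ ⟨z.pt, b.1⟩ ((nah_iff T R
      (fun A => P275HK.par A) m1.injective m3 a b (ν _).2 (nu ⟨z.pt, b.1⟩) ρ).1 N)))).symm, b⟩
  · have a : z.pt = (κ ρ.pt).1 := a.trans (s0 _)
    exact (nah_iff T R (fun A => P275HK.par A) m1.injective m3 ((congrArg Mod.x a).trans (κx _)) b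
      (ν _).2 (a ▸ nu (κ ρ.pt)) ρ).2 (νκ _).symm

/-- every holomorphic atlas carries the line bundle of the statement -/
theorem atlOf (S : Sit) {A : At S.C} (ok : Ok A) : ∃ T : S.Atl, T.A = A := by
  obtain ⟨l, s, h⟩ := exists_dv (A := A) ok S.D
  exact ⟨⟨A, ok, l, s, h, S.t2, S.cpt, S.con, h.cc, h.deg, S.adm.hn, S.adm.cop⟩, rfl⟩

/-- the bridge for a given holomorphic atlas -/
theorem brgOf (S : Sit) {A : At S.C} (ok : Ok A) : ∃ B : S.Brg, B.T.A = A := by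
  obtain ⟨T, h⟩ := atlOf S ok
  obtain ⟨B, e⟩ := brgAt S T
  exact ⟨B, e ▸ h⟩

/-- **(D2)** a bridge whose atlas is subordinate to given neighbourhoods; the charts are the
rescaled charts at the centres `c i` -/
theorem brgSub (S : Sit) (U : S.C → Set S.C) (hU : ∀ x, U x ∈ 𝓝 x) :
    ∃ (B : S.Brg) (c : Fin B.T.A.N → S.C) (r : S.C → ℝ) (hr : ∀ x, 0 < r x), B.T.A.R = 4 ∧
      ∀ i, B.T.A.e i = dch (c i) (hr (c i)) ∧ (B.T.A.e i).source ⊆ U (c i) := by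
  obtain ⟨A, c, r, hr, a, -, d⟩ := exists_at_sub U hU
  obtain ⟨B, rfl⟩ := brgOf S (A := A) fun i => by rw [(d i).1]; exact cmp_dch _ _
  exact ⟨B, c, r, hr, a, d⟩

end Vale.Agent.P275TD
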