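import Vale.Agent.P275TD.Fam
import Vale.Agent.P275TD.Brg
import Vale.Agent.P275TA.Nu
import Vale.Agent.P275MB.Gau
import Vale.Agent.P275HB.Hit

/-!
# P275, families: local families over the Dolbeault space, and the two continuity statements
-/

set_option linter.unusedSectionVars false

open scoped Matrix.Norms.Operator Topology ContDiff Manifold
open Filter Set Matrix Metric
open Vale.Agent.P275ST (VB Higgs deg)
open Vale.Agent.P275GC Vale.Agent.P275GC.At Vale.Agent.P275NA Vale.Agent.P275AD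
open Vale.Agent.P275MO (Dat Good off Ob FamOn FamAt IsOb)
open Vale.Agent.P275Z (Sit Rp tauX)
open Vale.Agent.P275TA (M0)
open Vale.Agent.P275SF (NAH XB)

noncomputable section

namespace Vale.Agent.P275TD

section hx
variable {C : Type} [TopologicalSpace C] [T2Space C] {A : At C} {n : ℕ} {l : Cy A ℂ}
  {T : Type} [TopologicalSpace T] {V : Set T} {F : T → Dat C A.N n} {p : C}

/-- without residue the Higgs field is continuous also at the marked point -/
theorem hx_cont (f : FamOn A l F V) (h : ∀ t ∈ V, (F t).R = 0 ∧ (F t).x = p) (i : Fin A.N) :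
    ContinuousOn (fun q : T × ℂ => hx ((F q.1).a i) q.2) (V ×ˢ ball 0 A.R) := by
  rintro ⟨t, w⟩ ⟨ht, hw⟩
  have hl : ∀ s ∈ V, DifferentiableOn ℂ (hx ((F s).a i)) (ball 0 A.R) := fun s a y b =>
    (P275HB.ho_a (f.good s a) (h s a).1 b).an.differentiableAt.differentiableWithinAt
  obtain ⟨δ, d0, d1⟩ := Metric.nhds_basis_closedBall.mem_iff.1 (isOpen_ball.mem_nhds hw)
  obtain ⟨ρ, ⟨r0, r1⟩, r2⟩ := ((Set.Ioo_infinite d0).sdiff
    (finite_singleton (dist (A.e i p) w))).nonempty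
  have sb : closedBall w ρ ⊆ ball 0 A.R := (closedBall_subset_closedBall r1.le).trans d1
  refine (P275MB.cw_of_sphere (u := fun s => hx ((F s).a i)) r0 ht (fun s a =>
    (hl s a).diffContOnCl_ball sb) fun y hy => ?_).mono (prod_mono Subset.rfl (subset_univ _))
  have hb := sb (sphere_subset_closedBall hy)
  have ho : y ∈ off A p i := ⟨hb, fun a => r2 (by rw [← a, rinv hb]; exact hy.symm)⟩
  refine ⟨(hl t ht).continuousOn.continuousAt (isOpen_ball.mem_nhds hb), ?_⟩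
  have e : ∀ᶠ q : T × ℂ in 𝓝[V ×ˢ univ] (t, y), q.1 ∈ V ∧ q.2 ∈ off A (F q.1).x i := by
    filter_upwards [self_mem_nhdsWithin,
      continuousWithinAt_snd.eventually ((P275MB.off_open p i).mem_nhds ho)] with q a b
    exact ⟨a.1, (h _ a.1).2.symm ▸ b⟩
  have m : y ∈ off A (F t).x i := (h t ht).2.symm ▸ ho
  exact ((f.a i (t, y) ⟨ht, m⟩).mono_of_mem_nhdsWithin e).congr_of_eventuallyEq
    (e.mono fun q a => P275HB.hx_a (f.good _ a.1) a.2) (P275HB.hx_a (f.good t ht) m)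

end hx

variable {S : Sit}

/-- **(D3)** local families over the Dolbeault space -/
theorem locFam (T : S.Atl) (y0 : M0 T) : ∃ (r : ℝ) (h1 : 1 < r) (h2 : r ≤ T.A.R) (W : Set (M0 T))
    (E : M0 T → Higgs S.C S.n S.D) (g : M0 T → Cy T.A (Mn S.n)) (a σ : M0 T → Fm T.A (Mn S.n)),
    IsOpen W ∧ y0 ∈ W ∧ (∀ y ∈ W, Ad (T.A.res r h1 h2) (E y) (g y) (a y) (σ y) ∧
      ∃ z : Ob T.A T.l (tauX S.n), z.pt = y.1 ∧ Rp T.A (E y) z.1) ∧
    (∀ i j, ContinuousOn (fun q : M0 T × ℂ => g q.1 i j q.2) (W ×ˢ (T.A.res r h1 h2).O i j)) ∧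
    ∀ i, ContinuousOn (fun q : M0 T × ℂ => a q.1 i q.2) (W ×ˢ ball 0 r) := by
  obtain ⟨K, hK⟩ := P275KG.kur_ok T.std (tauX S.n) y0.1
  let W : Set (M0 T) := Subtype.val ⁻¹' K.e.source
  let F : M0 T → Dat S.C T.A.N S.n := fun y => K.F (K.e y.1)
  have f : FamOn (T.A.res K.r K.h1 K.h2) T.l F W := P275MB.FamOn.comp K.fam.toFamOn
    (K.e.continuousOn.comp continuous_subtype_val.continuousOn fun _ a => a)
    fun _ a => K.e.map_source a
  have pt : ∀ y (a : y ∈ W), Ob.pt ⟨F y, K.ob _ (K.e.map_source a)⟩ = y.1 := fun y a =>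
    (K.symm _ (K.e.map_source a)).symm.trans (K.e.left_inv a)
  have k : ∀ y ∈ W, (F y).lam = 0 ∧ (F y).R = 0 ∧ (F y).x = S.p := fun y a =>
    ⟨(congrArg P275MO.Mod.lam (pt y a)).trans y.2.1,
      (Submodule.mem_bot ℂ).1 (K.ob _ (K.e.map_source a)).2,
      (congrArg P275MO.Mod.x (pt y a)).trans y.2.2⟩
  have ex : ∀ y ∈ W, ∃ (E : Higgs S.C S.n S.D) (σ : Fm T.A (Mn S.n)),
      Ad (T.A.res K.r K.h1 K.h2) E (F y).g (fun i => hx ((F y).a i)) σ := fun y a => by
    have gd := f.good y a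
    have hg := P275HB.hig_a gd (k y a).1 (k y a).2.1
    exact ofCoc (A := T.A.res K.r K.h1 K.h2) T.ok.res (P275RR.mfr _) hg
      ((Agr.stab_iff (A := T.A.res K.r K.h1 K.h2)
        (fun i w e => P275HB.hx_a (A := T.A.res K.r K.h1 K.h2) gd e) hg.hol gd T.dv.cc.res (k y a).1).1
        (P275MB.IsOb.stab (K.ob _ (K.e.map_source a)) gd))
      (fun i w e => P275HB.tr_a (A := T.A.res K.r K.h1 K.h2) gd (k y a).2.1 e) T.dv.res (u := fun _ _ => 1)
      ⟨fun _ => differentiableOn_const 1, fun _ _ _ => one_ne_zero,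
        fun i j w e => by rw [one_mul, mul_one, gd.det i j w e]⟩
  have : Nonempty (Higgs S.C S.n S.D) := ⟨(ex y0 hK).choose⟩
  choose! E σ h using ex
  exact ⟨K.r, K.h1, K.h2, W, E, fun y => (F y).g, fun y i => hx ((F y).a i), σ,
    K.e.open_source.preimage continuous_subtype_val, hK, fun y a => ⟨h y a, _, pt y a, (k y a).1,
      K.r, K.h1, K.h2, _, _, h y a,
      fun i w e => P275HB.hx_a (A := T.A.res K.r K.h1 K.h2) (f.good y a) e⟩, f.g,
    hx_cont f fun y a => (k y a).2⟩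

variable {X : Type} {pt : Higgs S.C S.n S.D → X}

/-- **`ν` is continuous along families given on a holomorphic atlas** -/
theorem nu_cont {ν : X → XB S.g S.n (deg S.D)} (hν : ∀ E ρ, NAH S.M S.ℓ E ρ ↔ ν (pt E) = ρ.pt)
    {A : At S.C} (ok : Ok A) {T : Type} [TopologicalSpace T] {V : Set T} {t : T} (ht : V ∈ 𝓝 t)
    {E : T → Higgs S.C S.n S.D} {g : T → Cy A (Mn S.n)} {a σ : T → Fm A (Mn S.n)}
    (h : ∀ s ∈ V, Ad A (E s) (g s) (a s) (σ s))
    (cg : ∀ i j, ContinuousOn (fun p : T × ℂ => g p.1 i j p.2) (V ×ˢ A.O i j))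
    (ca : ∀ i, ContinuousOn (fun p : T × ℂ => a p.1 i p.2) (V ×ˢ ball 0 A.R)) :
    ContinuousAt (fun s => ν (pt (E s))) t := by
  obtain ⟨B, rfl⟩ := brgOf S ok
  obtain ⟨F, f, k⟩ := famAd' ok B.T.dv (two_pos.trans_le S.adm.hn) h cg ca S.p ht
  exact (B.emb.isInducing.continuousAt_iff (g := fun x => B.sg (0, x))).2
    (f.congr (mem_of_superset ht fun s e => (P275TA.nu_eq B hν (k s e).1 (k s e).2).symm))

/-- **the inverse of `ν` is continuous** if families given on a holomorphic atlas are continuous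
for the topology of `X` -/
theorem symm_cont [TopologicalSpace X] {ν : X ≃ XB S.g S.n (deg S.D)}
    (hν : ∀ E ρ, NAH S.M S.ℓ E ρ ↔ ν (pt E) = ρ.pt)
    (H : ∀ (A : At S.C), Ok A → ∀ (T : Type) [TopologicalSpace T] (V : Set T) (t : T)
      (E : T → Higgs S.C S.n S.D) (g : T → Cy A (Mn S.n)) (a σ : T → Fm A (Mn S.n)), IsOpen V →
      t ∈ V → (∀ s ∈ V, Ad A (E s) (g s) (a s) (σ s)) →
      (∀ i j, ContinuousOn (fun p : T × ℂ => g p.1 i j p.2) (V ×ˢ A.O i j)) →
      (∀ i, ContinuousOn (fun p : T × ℂ => a p.1 i p.2) (V ×ˢ ball 0 A.R)) →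
      ContinuousAt (fun s => pt (E s)) t) : Continuous ν.symm := by
  obtain ⟨T⟩ := P275AD.atl S
  obtain ⟨B, rfl⟩ := brgAt S T
  refine P275TA.symm_cont B hν fun y => ?_
  obtain ⟨r, h1, h2, W, E, g, a, σ, o, m, k, cg, ca⟩ := locFam B.T y
  exact ⟨E, H _ B.T.ok.res _ W y E g a σ o m (fun s e => (k s e).1) cg ca,
    mem_of_superset (o.mem_nhds m) fun s e => (k s e).2⟩

end Vale.Agent.P275TD
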