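import Vale.Agent.P275AD.Rpa
import Vale.Agent.P275KR.Lim

/-!
# P275, families: the isomorphism of the determinant can be chosen continuously
-/

set_option linter.unusedSectionVars false

open scoped Matrix.Norms.Operator Topology ContDiff Manifold
open Filter Set Matrix Metric
open Vale.Agent.P281Z.Hm (an_ent an_of an_mul an_det an_inv an_trace)
open Vale.Agent.P275ST (VB Higgs deg)
open Vale.Agent.P275GC Vale.Agent.P275GC.At Vale.Agent.P275NA Vale.Agent.P275AD
open Vale.Agent.P275MO (Dat Good off Ob FamOn)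
open Vale.Agent.P275Z (Rp tauX)

noncomputable section

namespace Vale.Agent.P275TD

variable {C : Type} [TopologicalSpace C] [T2Space C] [ConnectedSpace C] {A : At C} {n : ℕ}
  {T : Type} [TopologicalSpace T] {V : Set T}

theorem zero_mem (A : At C) : (0 : ℂ) ∈ ball (0 : ℂ) A.R := mem_ball_self (one_pos.trans A.hR)

theorem ex_max {u : Fm A ℂ} (i0 : Fin A.N) (hu : A.Hl u) : ∃ i, ∃ w ∈ closedBall (0 : ℂ) 1,
    ∀ j, ∀ y ∈ closedBall (0 : ℂ) 1, ‖u j y‖ ≤ ‖u i w‖ := by
  choose v hv hm using fun j => (isCompact_closedBall (0 : ℂ) 1).exists_isMaxOn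
    (nonempty_closedBall.2 zero_le_one) ((hu j).continuousOn.mono A.unit_sub).norm
  have : Nonempty (Fin A.N) := ⟨i0⟩
  obtain ⟨k, hk⟩ := Finite.exists_max fun j => ‖u j (v j)‖
  exact ⟨k, v k, hv k, fun j y b => (hm j b).trans (hk j)⟩

/-- normalised trivialisations of a continuous family of line bundles are continuous -/
theorem sec_cont {c : T → Cy A ℂ} {u : T → Fm A ℂ} {i0 : Fin A.N}
    (hc : ∀ i j, ContinuousOn (fun p : T × ℂ => c p.1 i j p.2) (V ×ˢ A.O i j))
    (hu : ∀ t ∈ V, A.Hl (u t) ∧ A.Sec (c t) (u t) ∧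
      (∀ i, ∀ z ∈ ball (0 : ℂ) A.R, u t i z ≠ 0) ∧ u t i0 0 = 1) (i : Fin A.N) :
    ContinuousOn (fun p : T × ℂ => u p.1 i p.2) (V ×ˢ ball 0 A.R) := by
  rintro ⟨t, w⟩ ⟨ht, hw⟩
  refine (tendsto_iff_ultrafilter _ _ _).2 fun U hU => ?_
  rw [nhdsWithin_prod_eq] at hU
  have hs : Tendsto Prod.fst (U : Filter (T × ℂ)) (𝓝[V] t) := tendsto_fst.mono_left hU
  have hy : Tendsto Prod.snd (U : Filter (T × ℂ)) (𝓝[ball 0 A.R] w) := tendsto_snd.mono_left hU
  have hV := (tendsto_nhdsWithin_iff.1 hs).2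
  have tg : ∀ {J : Type} {L : Filter J} {s : J → T} {y : J → ℂ} {i j : Fin A.N} {x : ℂ},
      Tendsto s L (𝓝[V] t) → x ∈ A.O i j → Tendsto y L (𝓝 x) →
      Tendsto (fun k => c (s k) i j (y k)) L (𝓝 (c t i j x)) := fun {J L s y i j x} a b d =>
    (hc i j (t, x) ⟨ht, b⟩).tendsto.comp (f := fun k => (s k, y k)) (by
      rw [nhdsWithin_prod_eq, (O_open i j).nhdsWithin_eq b]; exact a.prodMk d)
  choose m v hv hm using fun s : V => ex_max i0 (hu s s.2).1
  classical
  let b : T → V := fun s => if h : s ∈ V then ⟨s, h⟩ else ⟨t, ht⟩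
  have hb : ∀ s ∈ V, (b s : T) = s := fun s h => by simp only [b, dif_pos h]
  let M : T → ℝ := fun s => ‖u (b s) (m (b s)) (v (b s))‖
  have M1 : ∀ s, 1 ≤ M s := fun s => by
    have := hm (b s) i0 0 (mem_closedBall_self zero_le_one)
    rwa [(hu _ (b s).2).2.2.2, norm_one] at this
  have M0 : ∀ s, (M s : ℂ) ≠ 0 := fun s => mod_cast (one_pos.trans_le (M1 s)).ne'
  let f : T × ℂ → Fm A ℂ := fun k j y => (M k.1 : ℂ)⁻¹ * u k.1 j y
  have nf : ∀ k j y, ‖f k j y‖ = (M k.1)⁻¹ * ‖u k.1 j y‖ := fun k j y => by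
    simp only [f, norm_mul, norm_inv, Complex.norm_real, Real.norm_eq_abs,
      abs_of_pos (one_pos.trans_le (M1 _))]
  have c1 : ∀ k : T × ℂ, k.1 ∈ V → ‖f k (m (b k.1)) (v (b k.1))‖ = 1 ∧
      ∀ j, ∀ y ∈ closedBall (0 : ℂ) 1, ‖f k j y‖ ≤ 1 := fun k a => by
    have p := one_pos.trans_le (M1 k.1)
    refine ⟨?_, fun j y e => ?_⟩
    · rw [nf, inv_mul_eq_one₀ p.ne']
      simp only [M, hb _ a]
    · rw [nf, inv_mul_le_one₀ p]
      simpa only [M, hb _ a] using hm (b k.1) j y e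
  have fh : ∀ k : T × ℂ, k.1 ∈ V → A.Hl (f k) := fun k a j =>
    ((hu _ a).1 j).const_mul _
  have fs : ∀ k : T × ℂ, k.1 ∈ V → ∀ i j, ∀ y ∈ A.O i j, f k i y = c k.1 i j y * f k j (A.tr i j y) :=
    fun k a i j y e => by
      simp only [f, (hu _ a).2.1 i j y e, smul_eq_mul]
      ring
  choose ψ p q using fun i => P275KR.montel U (f := fun k y => f k i y)
    (U := ball (0 : ℂ) A.R) isOpen_ball fun x hx => by
      obtain ⟨j, a, e0⟩ := ex_unit hx i
      have d := (tg (hs.comp tendsto_fst) a (tendsto_snd (f := (U : Filter (T × ℂ))))).norm.eventually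
        (gt_mem_nhds (lt_add_one _))
      obtain ⟨pa, e1, pb, e2, e⟩ := eventually_prod_iff.1 d
      obtain ⟨r, r0, e3⟩ := Metric.eventually_nhds_iff_ball.1 (e2.and (Eventually.and (O_nhds a)
        ((an_tr a).continuousAt.norm.eventually (gt_mem_nhds e0))))
      refine ⟨r, r0, _, (e1.and hV).mono fun k o => ⟨(fh k o.2 i).mono fun y hy =>
        (e3 y hy).2.1.1, fun y hy => le_trans ?_ (e o.1 (e3 y hy).1).le⟩⟩
      rw [fs k o.2 i j y (e3 y hy).2.1, norm_mul]
      exact mul_le_of_le_one_right (norm_nonneg _)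
        ((c1 k o.2).2 j _ (mem_closedBall_zero_iff.2 (e3 y hy).2.2.le))
  have ψs : ∀ i j, ∀ y ∈ A.O i j, ψ i y = c t i j y * ψ j (A.tr i j y) := fun i j y e =>
    tendsto_nhds_unique_of_eventuallyEq ((p i).tendsto_at e.1)
      ((tg hs e tendsto_const_nhds).mul ((p j).tendsto_at (tr_ball e)))
      (hV.mono fun k a => fs k a i j y e)
  obtain ⟨uh, us, un, u1⟩ := hu t ht
  have F : A.Fn fun i y => ψ i y / u t i y := fun i j y e => by
    have a := un i y e.1
    rw [us i j y e, smul_eq_mul] at a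
    beta_reduce
    rw [ψs i j y e, us i j y e, smul_eq_mul, mul_div_mul_left _ _ (left_ne_zero_of_mul a)]
  have K : ∀ j, ∀ y ∈ ball (0 : ℂ) A.R, ψ j y = ψ i0 0 * u t j y := fun j y e => by
    have := F.hol_const1 (fun i => (q i).div (uh i) (un i)) (zero_mem A) i0 j e
    rw [u1, div_one] at this
    rw [← this, div_mul_cancel₀ _ (un j y e)]
  have μ0 : ψ i0 0 ≠ 0 := fun z0 => by
    obtain ⟨j, a⟩ := Ultrafilter.eq_pure_of_finite (U.map fun k => m (b k.1))
    have e0 : ∀ᶠ k in (U : Filter (T × ℂ)), m (b k.1) = j := by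
      have : {j} ∈ U.map fun k => m (b k.1) := a ▸ Ultrafilter.mem_pure.2 rfl
      exact this
    obtain ⟨y, d, e⟩ := (isCompact_closedBall (0 : ℂ) 1).ultrafilter_le_nhds
      (U.map fun k => v (b k.1))
      (le_principal_iff.2 (Eventually.of_forall (fun k => hv _) : ∀ᶠ k in (U : Filter (T × ℂ)), _))
    have hy := A.unit_sub d
    have o := ((p j).tendsto_comp ((q j).continuousOn y hy) hy (tendsto_nhdsWithin_iff.2
      ⟨e, Eventually.of_forall fun k => A.unit_sub (hv _)⟩)).norm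
    have := tendsto_nhds_unique_of_eventuallyEq o tendsto_const_nhds ((e0.and hV).mono fun k a => by
      rw [← a.1]; exact (c1 k a.2).1)
    rw [K j y hy, z0, zero_mul, norm_zero] at this
    exact zero_ne_one this
  have o := ((p i).tendsto_comp ((q i).continuousOn w hw) hw hy).div
    ((p i0).tendsto_at (zero_mem A)) μ0
  rw [K i w hw, mul_div_cancel_left₀ _ μ0] at o
  refine o.congr' (hV.mono fun k a => ?_)
  simp only [Pi.div_apply, f, (hu _ a).2.2.2, mul_one]
  rw [mul_div_cancel_left₀ _ (inv_ne_zero (M0 _))]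

/-- the isomorphisms `l → det g t` can be chosen continuously -/
theorem detc {l : Cy A ℂ} (hl : A.Cc l) {g : T → Cy A (Mn n)}
    (hc : ∀ i j, ContinuousOn (fun p : T × ℂ => g p.1 i j p.2) (V ×ˢ A.O i j))
    (hu : ∀ t ∈ V, ∃ u, DetI A (g t) l u) : ∃ u : T → Fm A ℂ, (∀ t ∈ V, DetI A (g t) l (u t)) ∧
      ∀ i, ContinuousOn (fun p : T × ℂ => u p.1 i p.2) (V ×ˢ ball 0 A.R) := by
  obtain ⟨i0, -⟩ := A.cov (Classical.arbitrary C)
  choose! u hu using hu
  have k : ∀ t ∈ V, DetI A (g t) l fun i w => (u t i0 0)⁻¹ * u t i w := fun t ht =>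
    ⟨fun i => ((hu t ht).hol i).const_mul _, fun i z e => mul_ne_zero
      (inv_ne_zero ((hu t ht).ne i0 0 (zero_mem A))) ((hu t ht).ne i z e), fun i j z e => by
        rw [mul_assoc, (hu t ht).tr i j z e, mul_left_comm]⟩
  refine ⟨_, k, sec_cont (c := fun t i j z => (g t i j z).det / l i j z) (i0 := i0)
    (fun i j => ?_) fun t ht => ⟨(k t ht).hol, fun i j z e => ?_, (k t ht).ne,
      inv_mul_cancel₀ ((hu t ht).ne i0 0 (zero_mem A))⟩⟩
  · exact (continuous_id.matrix_det.comp_continuousOn (hc i j)).div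
      ((hl.hol i j).continuousOn.comp continuous_snd.continuousOn fun _ a => a.2)
      fun _ a => hl.ne a.2
  · rw [smul_eq_mul, div_mul_eq_mul_div, ← (k t ht).tr i j z e, mul_div_cancel_right₀ _ (hl.ne e)]

end Vale.Agent.P275TD
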