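import Vale.Agent.P275TD.Det

/-!
# P275, families: from families of cocycles to families of objects
-/

set_option linter.unusedSectionVars false

open scoped Matrix.Norms.Operator Topology ContDiff Manifold
open Filter Set Matrix Metric
open Vale.Agent.P281Z.Hm (an_ent an_of an_mul an_det an_inv an_trace)
open Vale.Agent.P275ST (VB Higgs deg)
open Vale.Agent.P275GC Vale.Agent.P275GC.At Vale.Agent.P275NA Vale.Agent.P275AD
open Vale.Agent.P275MO (Dat Good off Ob FamOn FamAt IsOb)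
open Vale.Agent.P275Z (Rp tauX)

noncomputable section

namespace Vale.Agent.P275TD

theorem contOn_inv {X : Type} [TopologicalSpace X] {n : ℕ} {f : X → Mn n} {S : Set X}
    (hf : ContinuousOn f S) (h0 : ∀ x ∈ S, (f x).det ≠ 0) : ContinuousOn (fun x => (f x)⁻¹) S :=
  fun x hx => (an_inv (𝕜 := ℂ) analyticAt_id (h0 x hx)).continuousAt.comp_continuousWithinAt
    (hf x hx)

/-- the matrix `diag(u, 1, .., 1)` -/
def dg {n : ℕ} (hn : 0 < n) (u : ℂ) : Mn n := diagonal (Function.update 1 ⟨0, hn⟩ u)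

theorem det_dg {n : ℕ} (hn : 0 < n) (u : ℂ) : (dg hn u).det = u := by
  simp [dg, Finset.prod_update_of_mem]

theorem an_dg {n : ℕ} (hn : 0 < n) (u : ℂ) : AnalyticAt ℂ (dg hn) u := an_of fun b c => by
  simp only [dg, diagonal_apply, Function.update_apply]
  split_ifs
  exacts [analyticAt_id, analyticAt_const, analyticAt_const]

theorem cont_dg {n : ℕ} (hn : 0 < n) : Continuous (dg hn) :=
  continuous_iff_continuousAt.2 fun u => (an_dg hn u).continuousAt

variable {C : Type} [TopologicalSpace C] [T2Space C] [ConnectedSpace C] [ChartedSpace ℂ C]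
  [IsManifold 𝓘(ℂ) ω C] {A : At C} {n : ℕ} {T : Type} [TopologicalSpace T] {V : Set T}
  {D : C →₀ ℤ} {l : Cy A ℂ} {s : Fm A ℂ}

/-- a change of frames -/
theorem ad_fc {E : Higgs C n D} {g : Cy A (Mn n)} {a σ φ : Fm A (Mn n)} (h : Ad A E g a σ)
    (hφ : A.Hl φ) (ne : ∀ i, ∀ w ∈ ball (0 : ℂ) A.R, (φ i w).det ≠ 0) :
    Ad A E (fc A φ g) (fe A φ a) fun i w => σ i w * φ i w := by
  have an : ∀ i, ∀ w ∈ ball (0 : ℂ) A.R, AnalyticAt ℂ (φ i) w := fun i w e => hφ.an e i
  have cc := h.fr.cc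
  refine h.iso ⟨fun i j w e => (an_mul (an_mul (an_inv (an i w e.1) (ne i w e.1))
    (cc.an e)) ((an j _ (tr_ball e)).comp (an_tr e))).differentiableAt.differentiableWithinAt,
    fun i w e => ?_, fun i j k w e f => ?_⟩ (an_of_hl fun i w e => an_mul (an_mul (an_inv (an i w e)
      (ne i w e)) (h.hol.an e i)) (an i w e)) ⟨hφ, fun i j w e => ?_, fun i w e => ?_⟩ ne
  · rw [fc, cc.one i w e, tr_self e, Matrix.mul_one, nonsing_inv_mul _ (ne i w e).isUnit]
  · simp only [fc, cc.mul i j k w e f, tr_tr e, Matrix.mul_assoc,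
      mul_nonsing_inv_cancel_left _ _ (ne j _ (tr_ball e)).isUnit]
  · rw [fc, Matrix.mul_assoc, mul_nonsing_inv_cancel_left _ _ (ne i w e.1).isUnit]
  · rw [fe, Matrix.mul_assoc, mul_nonsing_inv_cancel_left _ _ (ne i w e).isUnit]

/-- **(D1)** a continuous family of cocycles and Higgs fields gives a family of objects -/
theorem famAd (ok : Ok A) (dv : Dv A D l s) (hn : 0 < n) {E : T → Higgs C n D}
    {g : T → Cy A (Mn n)} {a σ : T → Fm A (Mn n)} (h : ∀ t ∈ V, Ad A (E t) (g t) (a t) (σ t))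
    (cg : ∀ i j, ContinuousOn (fun p : T × ℂ => g p.1 i j p.2) (V ×ˢ A.O i j))
    (ca : ∀ i, ContinuousOn (fun p : T × ℂ => a p.1 i p.2) (V ×ˢ ball 0 A.R)) (p : C) :
    ∃ F : T → Dat C A.N n, FamOn A l F V ∧ ∀ t ∈ V, IsOb A l (tauX n).q (F t) ∧ (F t).x = p ∧
      Rp A (E t) (F t) := by
  obtain ⟨u, hu, cu⟩ := detc dv.cc cg fun t ht => (h t ht).detI ok dv
  let φ : T → Fm A (Mn n) := fun t i w => dg hn (u t i w)
  have ne : ∀ t ∈ V, ∀ i, ∀ w ∈ ball (0 : ℂ) A.R, (φ t i w).det ≠ 0 := fun t ht i w e =>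
    (det_dg hn _).trans_ne ((hu t ht).ne i w e)
  have k : ∀ t ∈ V, Ad A (E t) (fc A (φ t) (g t)) (fe A (φ t) (a t)) fun i w => σ t i w * φ t i w :=
    fun t ht => ad_fc (h t ht) (an_of_hl fun i w e => (an_dg hn _).comp ((hu t ht).hol.an e i))
      (ne t ht)
  have gd : ∀ t ∈ V, Good A l (dat A p (fc A (φ t) (g t)) (fe A (φ t) (a t))) := fun t ht =>
    good_dat p ((k t ht).hig ok) (fun i j w e => by
      rw [fc, Matrix.mul_assoc, Matrix.det_mul, Matrix.det_mul, det_dg, ← (hu t ht).tr i j w e,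
        det_nonsing_inv, det_dg, Ring.inverse_eq_inv', inv_mul_cancel_left₀ ((hu t ht).ne i w e.1)])
      fun i w x => (k t ht).trace ok x
  have cφ : ∀ i, ContinuousOn (fun q : T × ℂ => φ q.1 i q.2) (V ×ˢ ball 0 A.R) := fun i =>
    (cont_dg hn).comp_continuousOn (cu i)
  have ci : ∀ i, ContinuousOn (fun q : T × ℂ => (φ q.1 i q.2)⁻¹) (V ×ˢ ball 0 A.R) := fun i =>
    contOn_inv (cφ i) fun q e => ne _ e.1 i _ e.2
  have cg' : ∀ i j, ContinuousOn (fun q : T × ℂ => fc A (φ q.1) (g q.1) i j q.2) (V ×ˢ A.O i j) :=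
    fun i j => (((ci i).mono (prod_mono_right fun _ e => e.1)).mul (cg i j)).mul
      ((cφ j).comp (f := fun q : T × ℂ => (q.1, A.tr i j q.2)) (continuous_fst.continuousOn.prodMk
        fun q e => ((an_tr e.2).continuousAt.comp continuousAt_snd).continuousWithinAt)
        fun q e => ⟨e.1, tr_ball e.2⟩)
  refine ⟨fun t => dat A p (fc A (φ t) (g t)) (fe A (φ t) (a t)), ⟨gd, continuousOn_const,
    continuousOn_const, continuousOn_const, cg', fun i => (((ci i).mul (ca i)).mul (cφ i)).mono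
      fun q e => ⟨e.1, e.2.1⟩, fun i => ?_⟩, fun t ht => ⟨P275MB.isOb_of (gd t ht) ?_
        (Submodule.zero_mem _), rfl, rfl, A.R, A.hR, le_rfl, _, _, (k t ht).res, fun _ _ _ => rfl⟩⟩
  · exact (cg' i _).comp (f := fun t : T => (t, A.e i p))
      (continuous_id.prodMk continuous_const).continuousOn
      fun t e => ⟨e.1, mem_O e.2 (A.cov p).choose_spec.1⟩
  · exact (Agr.stab_iff (z := dat A p _ _) (fun _ _ _ => rfl) (k t ht).hol (gd t ht) dv.cc rfl).2
      ((k t ht).stab ok)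

/-- **(D1')** the same with objects, near a point of the parameter space -/
theorem famAd' (ok : Ok A) (dv : Dv A D l s) (hn : 0 < n) {E : T → Higgs C n D}
    {g : T → Cy A (Mn n)} {a σ : T → Fm A (Mn n)} (h : ∀ t ∈ V, Ad A (E t) (g t) (a t) (σ t))
    (cg : ∀ i j, ContinuousOn (fun p : T × ℂ => g p.1 i j p.2) (V ×ˢ A.O i j))
    (ca : ∀ i, ContinuousOn (fun p : T × ℂ => a p.1 i p.2) (V ×ˢ ball 0 A.R)) (p : C) {t : T}
    (ht : V ∈ 𝓝 t) : ∃ F : T → Ob A l (tauX n), ContinuousAt (fun s => (F s).pt) t ∧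
      ∀ s ∈ V, (F s).1.x = p ∧ Rp A (E s) (F s).1 := by
  obtain ⟨F, f, k⟩ := famAd ok dv hn h cg ca p
  classical
  have m := mem_of_mem_nhds ht
  let b : T → V := fun s => if h : s ∈ V then ⟨s, h⟩ else ⟨t, m⟩
  have hb : ∀ s ∈ V, (b s : T) = s := fun s h => by simp only [b, dif_pos h]
  refine ⟨fun s => ⟨F (b s), (k _ (b s).2).1⟩, FamAt.continuousAt (P275MB.FamOn.at
    (P275MB.FamOn.comp f (continuousOn_id.congr hb) fun s _ => (b s).2) ht), fun s e => ?_⟩
  have := (k _ (b s).2).2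
  rw [hb s e] at this
  simpa only [hb s e] using this

end Vale.Agent.P275TD
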